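import Vale.Agent.P231.S3B4.FaT
import Vale.Agent.P231.S3B6.Br

/-!
# P231, stage 3, [S3-B] (B4): functoriality and restriction of the relative numbers
-/

set_option linter.unusedSectionVars false
set_option linter.unusedVariables false

open MeasureTheory Set Module Filter Topology
open scoped ContDiff Real ENNReal

namespace Vale.Agent.P231.S3B4d

open Vale.Agent.P231.Fm Vale.Agent.P231.W Vale.Agent.P231.H584 Vale.Agent.P231.S3L
  Vale.Agent.P231.H766 Vale.Agent.P231.TW Vale.Agent.P231.S3B4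
open Vale.Agent.P231.Fm.Form (IsDeg)

/-! ### plots with values in another space -/

section Post

variable {V : Type} [NormedAddCommGroup V] [NormedSpace ℝ V] [FiniteDimensional ℝ V]
variable {Y Y' : Type*} {DY : Dif Y} {DY' : Dif Y'} {OY : Set Y} {OY' : Set Y'} {U O B : Set V}
  {κ : V → Y} {κ' : V → Y'} {f : Y → Y'} {χ : V → ℝ}

/-- a plot followed by a smooth map -/
theorem post (h : Plt U O B DY OY κ) (hf : DY.Map DY' f) (hm : ∀ y ∈ OY, f y ∈ OY') :
    Plt U O B DY' OY' fun x => f (κ x) where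
  opU := h.opU
  opO := h.opO
  sub := h.sub
  clB := h.clB
  map := fun {E} _ _ _ {u x} hu => hf (h.map hu)
  mem x hx := hm _ (h.mem x hx)
  thin := h.thin.comp_left hf

variable [MeasurableSpace V] [BorelSpace V]

/-- the number of a plot followed by a smooth map -/
theorem Pn_comp {N : ℕ} (b : Basis (Fin N) ℝ V) (h : Plt U O B DY OY κ) (hf : DY.Map DY' f)
    (hm : ∀ y ∈ OY, f y ∈ OY') (h' : Plt U O B DY' OY' κ') (hκ : ∀ x ∈ U, κ' x = f (κ x))
    (T : Form DY') (L : Form (DY'.on OY')) :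
    Pn b χ h' T L = Pn b χ h (Form.pull f hf T) (Form.pull f (hf.on_on hm) L) := by
  rw [Pn_congr b h' (post h hf hm) hκ, Pn, Pn]
  congr 1
  · exact (pull_pull h.map hf (post h hf hm).map (fun _ => rfl) T).symm
  · exact (pull_pull h.mapO (hf.on_on hm) (post h hf hm).mapO (fun _ => rfl) L).symm

end Post

/-! ### the classes of composed families -/

section Fam

variable {M : Type*} [MetricSpace M] {DM : Dif M} {S : NNReal} {W : ℝ≥0∞} {δ : ℝ} {J : ℕ}
variable {Y Y' : Type*} {DY : Dif Y} {DY' : Dif Y'} {OY : Set Y} {OY' : Set Y'}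
  {c c' : Y → ℝ → M} {a a' : Y → Fin J → ℂ} {f : Y' → Y}

theorem comp_T (h : FA DY DM S W δ J OY c a) (hf : DY'.Map DY f) (hO : TH.Opn DY' OY')
    (hm : ∀ y ∈ OY', f y ∈ OY) (F : Form DM) :
    (h.comp hf hO hm).T F = Form.pull f hf (h.T F) :=
  (pull_pull hf h.map (h.comp hf hO hm).map (fun _ => rfl) (t2P F)).symm

theorem comp_L (h : FA DY DM S W δ J OY c a) (hf : DY'.Map DY f) (hO : TH.Opn DY' OY')
    (hm : ∀ y ∈ OY', f y ∈ OY) (z0 : LL DM S W δ J) (ℓ : Form (dLL DM S W δ J)) :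
    (h.comp hf hO hm).L z0 ℓ = Form.pull f (hf.on_on hm) (h.L z0 ℓ) :=
  (pull_pull (hf.on_on hm) (h.map_tl z0) ((h.comp hf hO hm).map_tl z0) (fun _ => rfl) ℓ).symm

theorem T_congr (h : FA DY DM S W δ J OY c a) (h' : FA DY DM S W δ J OY c' a')
    (hc : ∀ y, Pt DY y → c y = c' y) (F : Form DM) : h.T F = h'.T F := by
  rw [h.T_eq, h'.T_eq]
  exact T2n_congr _ _ (fun y hy t => congrFun (hc y hy) t) F

theorem L_congr (h : FA DY DM S W δ J OY c a) (h' : FA DY DM S W δ J OY c' a')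
    (hc : ∀ y, Pt DY y → c y = c' y) (ha : ∀ y ∈ OY, Pt DY y → a y = a' y)
    (z0 : LL DM S W δ J) (ℓ : Form (dLL DM S W δ J)) : h.L z0 ℓ = h'.L z0 ℓ := by
  refine Form.ext_val fun E _ _ _ u x hu => ?_
  rw [FA.L, FA.L, Form.pull_val _ _ hu, Form.pull_val _ _ hu]
  refine ℓ.congr (h.map_tl z0 hu) ?_
  filter_upwards [hu.2, DY.open' hu.1] with y hO hy
  have hp : Pt DY (u y) := pt_of_at hy
  refine LL.ext' (fun t => ?_) fun j => ?_
  · exact (congrFun (h.tl_c z0 hO hp) t).trans ((congrFun (hc _ hp) t).trans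
      (congrFun (h'.tl_c z0 hO hp) t).symm)
  · exact (congrFun (h.tl_a z0 hO hp) j).trans ((congrFun (ha _ hO hp) j).trans
      (congrFun (h'.tl_a z0 hO hp) j).symm)

end Fam

/-! ### restriction -/

section Res

variable {V : Type} [NormedAddCommGroup V] [NormedSpace ℝ V] [FiniteDimensional ℝ V]
variable {Y : Type*} {DY : Dif Y} {OY : Set Y} {U O B U' O' B' : Set V} {κ κ' : V → Y}
  {χ χ' : V → ℝ}

theorem restr (h : Plt U O B DY OY κ) (hU' : IsOpen U') (hO' : IsOpen O') (hs : O' ⊆ U')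
    (hU : U' ⊆ U) (hO : O' ⊆ O) : Plt U' O' B DY OY κ where
  opU := hU'
  opO := hO'
  sub := hs
  clB := h.clB
  map := fun {E} _ _ _ {u x} hu => h.map ⟨hu.1, hu.2.mono fun y hy => hU hy⟩
  mem x hx := h.mem x (hO hx)
  thin := h.thin.subset (inter_subset_inter_left _ hU)

theorem setB (h : Plt U O B DY OY κ) (hB' : IsClosed B') (hB : ∀ x ∈ U, x ∈ B → x ∈ B') :
    Plt U O B' DY OY κ where
  opU := h.opU
  opO := h.opO
  sub := h.sub
  clB := hB'
  map := h.map
  mem := h.mem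
  thin := h.thin.subset fun x hx => ⟨hx.1, fun h1 => hx.2 (hB x hx.1 h1)⟩

theorem cut_setB (h : Cut U O B' χ) (hB : ∀ x ∈ U, x ∈ B → x ∈ B') : Cut U O B χ where
  smooth := h.smooth
  cpt := h.cpt
  supp := h.supp
  one x hU hx := h.one x hU fun h1 => hx (h1.elim Or.inl fun h2 =>
    Or.inr ⟨h2.1, fun h3 => h2.2 (hB x hU h3)⟩)

variable [MeasurableSpace V] [BorelSpace V]

/-- **the number only depends on a neighbourhood of the core** -/
theorem Pn_small {N k : ℕ} (hN : N = k + 1) (b : Basis (Fin N) ℝ V) {T : Form DY}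
    {L : Form (DY.on OY)} (hR : Rel DY OY T L) (h : Plt U O B DY OY κ) (hχ : Cut U O B χ)
    (h' : Plt U' O' B' DY OY κ') (hχ' : Cut U' O' B' χ') (hU : U' ⊆ U) (hO : O' ⊆ O)
    (hB : ∀ x ∈ U', x ∈ B → x ∈ B') (hκ : ∀ x ∈ U', κ' x = κ x)
    (hcut : ∀ x ∈ U, x ∈ B → x ∉ O → x ∈ U') : Pn b χ h T L = Pn b χ' h' T L := by
  have h1 : Plt U' O' B DY OY κ := restr h h'.opU h'.opO h'.sub hU hO
  have hc1 : Cut U' O' B χ' := cut_setB hχ' hB
  have hc2 : Cut U O B χ' := Cut.of_res hU hO hc1 hcut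
  rw [Pn_indep hN b h hR hχ hc2, ← Pn_res b h h1 hR hU hO hc1,
    Pn_congr b h' (setB h1 h'.clB hB) hκ]
  rfl

end Res

/-! ### cut off functions -/

section Cutoff

variable {V : Type} [NormedAddCommGroup V] [NormedSpace ℝ V] [FiniteDimensional ℝ V]

theorem exists_cutOf {U K : Set V} (hU : IsOpen U) (hK : IsCompact K) (hs : K ⊆ U) :
    ∃ χ : V → ℝ, ContDiff ℝ ∞ χ ∧ HasCompactSupport χ ∧ tsupport χ ⊆ U ∧
      ∀ x ∈ K, ∀ᶠ y in 𝓝 x, χ y = 1 := by
  obtain ⟨L, hL, h1, h2⟩ := exists_compact_between hK hU hs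
  obtain ⟨g, g1, g2, g3⟩ := exists_contMDiffMap_one_nhds_of_subset_interior (n := ⊤)
    (modelWithCornersSelf ℝ V) hK.isClosed h1
  have h3 : tsupport (g : V → ℝ) ⊆ L := closure_minimal (fun x hx => by
    by_contra h
    exact hx (g2 x h)) hL.isClosed
  refine ⟨g, g.contMDiff.contDiff, hL.of_isClosed_subset (isClosed_tsupport _) h3,
    h3.trans h2, fun x hx => ?_⟩
  exact g1.filter_mono (nhds_le_nhdsSet hx)

end Cutoff

end Vale.Agent.P231.S3B4d
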