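import Vale.Agent.P231.S3B4d.Fun
import Vale.Agent.P231.S3B5.Head
import Vale.Agent.P231.S3B4c.Main

/-!
# P231, stage 3, [S3-B] (B4): the plots of the small ball of `ξ + E'`
-/

set_option maxSynthPendingDepth 3
set_option linter.unusedSectionVars false
set_option linter.unusedVariables false

open Bundle Manifold Set Filter Module MeasureTheory
open scoped ContDiff Manifold Topology ENNReal

namespace Vale.Agent.P231.S3B4d

noncomputable section

open Vale.Agent.P234 Vale.Agent.P231 Vale.Agent.P231.Fm Vale.Agent.P231.W Vale.Agent.P231.WR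
open Vale.Agent.P231.WF Vale.Agent.P231.H766 Vale.Agent.P231.S2N Vale.Agent.P231.S3S
open Vale.Agent.P231.S3Y Vale.Agent.P231.S3B4 Vale.Agent.P231.S3B5
open Vale.Agent.P231.S2II (Eul)
open Vale.Agent.P231.S3B4c (Vec cmbE cmbE_apply contDiff_cmbE norm_cmbE)

/-! ### sets -/

section Sets

variable {Z A : Type} [NormedAddCommGroup Z] [NormedAddCommGroup A]

/-- the open ball bundle -/
def Ud (Z A : Type) [NormedAddCommGroup Z] [NormedAddCommGroup A] (r : ℝ) : Set (Z × A) :=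
  {p | ‖p.2‖ < r}

/-- the open annulus bundle -/
def Od (Z A : Type) [NormedAddCommGroup Z] [NormedAddCommGroup A] (s r : ℝ) : Set (Z × A) :=
  {p | s < ‖p.2‖ ∧ ‖p.2‖ < r}

/-- the part over a set of the base -/
def Bd (A : Type) (K : Set Z) : Set (Z × A) := {p | p.1 ∈ K}

theorem isOpen_Ud (r : ℝ) : IsOpen (Ud Z A r) :=
  isOpen_lt (continuous_snd.norm) continuous_const

theorem isOpen_Od (s r : ℝ) : IsOpen (Od Z A s r) :=
  (isOpen_lt continuous_const (continuous_snd.norm)).inter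
    (isOpen_lt (continuous_snd.norm) continuous_const)

theorem Od_sub (s r : ℝ) : Od Z A s r ⊆ Ud Z A r := fun _ h => h.2

theorem isClosed_Bd {K : Set Z} (hK : IsCompact K) : IsClosed (Bd A K) :=
  hK.isClosed.preimage continuous_fst

theorem exists_cutd [NormedSpace ℝ Z] [FiniteDimensional ℝ Z] [NormedSpace ℝ A]
    [FiniteDimensional ℝ A] {K : Set Z} (hK : IsCompact K) {s r : ℝ} (hs : s < r) :
    ∃ χ : Z × A → ℝ, Cut (Ud Z A r) (Od Z A s r) (Bd A K) χ := by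
  obtain ⟨χ, h1, h2, h3, h4⟩ := exists_cutOf (U := Ud Z A r) (isOpen_Ud r)
    (hK.prod (isCompact_closedBall (0 : A) s)) fun p hp =>
      (mem_closedBall_zero_iff.1 hp.2).trans_lt hs
  refine ⟨χ, h1, h2, h3, fun p hp hq => h4 p ⟨?_, ?_⟩⟩
  · by_contra h
    exact hq (Or.inr ⟨hp, h⟩)
  · rw [mem_closedBall_zero_iff]
    by_contra h
    exact hq (Or.inl ⟨not_le.1 h, hp⟩)

end Sets

/-! ### triples of vectors -/

section Trip

variable {ι : Type} [Fintype ι] {l : ℕ} {Z : Type} [NormedAddCommGroup Z] [NormedSpace ℝ Z]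
  {f : Fin l → Z → EuclideanSpace ℝ ι}

/-- the triples of coefficients -/
abbrev E3 (l : ℕ) : Type := Eul l × (Eul l × Eul l)

/-- the triple of linear combinations -/
def cm3 (f : Fin l → Z → EuclideanSpace ℝ ι) (p : Z × E3 l) : Wp ι :=
  (cmbE (fun i => f i p.1) p.2.1, (cmbE (fun i => f i p.1) p.2.2.1,
    cmbE (fun i => f i p.1) p.2.2.2))

theorem norm_cm3 [DecidableEq ι] (ho : ∀ x, Orthonormal ℝ fun i => f i x) (p : Z × E3 l) :
    ‖cm3 f p‖ = ‖p.2‖ := by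
  unfold cm3
  rw [Prod.norm_def, Prod.norm_def, norm_cmbE (ho _), norm_cmbE (ho _), norm_cmbE (ho _)]
  rfl

theorem contDiff_cm3 (hf : ∀ i, ContDiff ℝ ∞ (f i)) : ContDiff ℝ ∞ (cm3 f) := by
  have h1 : ContDiff ℝ ∞ (fun p : Z × E3 l => cmbE fun i => f i p.1) :=
    (contDiff_cmbE hf).comp contDiff_fst
  exact (h1.clm_apply (contDiff_fst.comp contDiff_snd)).prodMk
    ((h1.clm_apply (contDiff_fst.comp (contDiff_snd.comp contDiff_snd))).prodMk
      (h1.clm_apply (contDiff_snd.comp (contDiff_snd.comp contDiff_snd))))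

/-- the linear change of parameters -/
def lamL {D : ℝ} (hD : 0 < D) (A : Type*) [NormedAddCommGroup A] [NormedSpace ℝ A] :
    (A × (A × A)) ≃ₗ[ℝ] (A × (A × A)) where
  toFun := lamV D
  map_add' p q := by
    unfold lamV
    refine Prod.ext ?_ (Prod.ext ?_ ?_)
    · simp only [Prod.fst_add, Prod.snd_add]
      module
    · simp only [Prod.fst_add, Prod.snd_add]
      module
    · simp only [Prod.fst_add, Prod.snd_add]
      module
  map_smul' c p := by
    unfold lamV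
    refine Prod.ext ?_ (Prod.ext ?_ ?_)
    · simp only [Prod.smul_fst, Prod.smul_snd, RingHom.id_apply]
      module
    · simp only [Prod.smul_fst, Prod.smul_snd, RingHom.id_apply]
      module
    · simp only [Prod.smul_fst, Prod.smul_snd, RingHom.id_apply]
      module
  invFun c := ((4 * D)⁻¹ • (c.1 + c.2.1 + c.2.2), (-((2 * S3B3.kap' D)⁻¹ • c.2.1),
    (2 * S3B3.kap' D)⁻¹ • (c.2.2 - c.1)))
  left_inv p := by
    have hk := (S3B3.kap'_pos hD).ne'
    have hD' := hD.ne'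
    unfold lamV
    refine Prod.ext ?_ (Prod.ext ?_ ?_)
    · match_scalars <;> field_simp <;> ring
    · match_scalars
      field_simp
    · match_scalars <;> field_simp <;> ring
  right_inv p := by
    have hk := (S3B3.kap'_pos hD).ne'
    have hD' := hD.ne'
    unfold lamV
    refine Prod.ext ?_ (Prod.ext ?_ ?_)
    · match_scalars <;> field_simp <;> ring
    · match_scalars
      field_simp
    · match_scalars <;> field_simp <;> ring

/-- the linear change of parameters, continuous -/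
def lamE {D : ℝ} (hD : 0 < D) (A : Type*) [NormedAddCommGroup A] [NormedSpace ℝ A]
    [FiniteDimensional ℝ A] : (A × (A × A)) ≃L[ℝ] (A × (A × A)) :=
  (lamL hD A).toContinuousLinearEquiv

theorem lamE_apply {D : ℝ} (hD : 0 < D) {A : Type*} [NormedAddCommGroup A] [NormedSpace ℝ A]
    [FiniteDimensional ℝ A] (p : A × (A × A)) : lamE hD A p = lamV D p := rfl

/-- a bound for the inverse of the linear change of parameters -/
theorem exists_lam_le {D : ℝ} (hD : 0 < D) (A : Type*) [NormedAddCommGroup A] [NormedSpace ℝ A]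
    [FiniteDimensional ℝ A] :
    ∃ C : ℝ, 0 < C ∧ ∀ w : A × (A × A), ‖w‖ ≤ C * ‖lamV D w‖ := by
  refine ⟨‖((lamE hD A).symm : (A × (A × A)) →L[ℝ] (A × (A × A)))‖ + 1, by positivity,
    fun w => ?_⟩
  have h1 := ((lamE hD A).symm : (A × (A × A)) →L[ℝ] (A × (A × A))).le_opNorm (lamV D w)
  have h2 : ((lamE hD A).symm : (A × (A × A)) →L[ℝ] (A × (A × A))) (lamV D w) = w :=
    (lamE hD A).symm_apply_apply w
  rw [h2] at h1
  exact h1.trans (by nlinarith [norm_nonneg (lamV D w)])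

variable (Z) in
/-- the linear change of coordinates -/
def AA {D : ℝ} (hD : 0 < D) (l : ℕ) : (Z × E3 l) ≃L[ℝ] (Z × E3 l) :=
  (ContinuousLinearEquiv.refl ℝ Z).prodCongr (lamE hD (Eul l))

theorem AA_apply {D : ℝ} (hD : 0 < D) (l : ℕ) (p : Z × E3 l) :
    AA Z hD l p = (p.1, lamV D p.2) := rfl

theorem cm3_AA {D : ℝ} (hD : 0 < D) (p : Z × E3 l) : cm3 f (AA Z hD l p) = lamV D (cm3 f p) := by
  rw [AA_apply]
  unfold cm3 lamV
  simp only [map_add, map_smul, map_sub, map_neg]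

end Trip

/-! ### the plots -/

variable {E : Type*} [NormedAddCommGroup E] [NormedSpace ℝ E]
  {M : Type*} [MetricSpace M] [ChartedSpace E M]
  [RiemannianBundle (fun x : M => TangentSpace 𝓘(ℝ, E) x)]
  {e : ∀ x : M, TangentSpace 𝓘(ℝ, E) x → M}
  [FiniteDimensional ℝ E] [IsManifold 𝓘(ℝ, E) ∞ M]
  [IsContMDiffRiemannianBundle 𝓘(ℝ, E) ∞ E (fun x : M => TangentSpace 𝓘(ℝ, E) x)]
  [CompactSpace M] [ConnectedSpace M] [IsRiemannianManifold 𝓘(ℝ, E) M]

variable {ι : Type} [Fintype ι] [DecidableEq ι]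

variable {F : Facts e} {D : ℝ} {hD : 0 < D} {hB : InjGE e D} {hdiam : ∀ p q : M, dist p q ≤ D}
  {l : ℕ} {X δ : ι → UT E M → E} {ε r : ℝ}

variable {Z : Type} [NormedAddCommGroup Z] [NormedSpace ℝ Z] [FiniteDimensional ℝ Z]
  {G₁ : Z → UT E M} {f : Fin l → Z → EuclideanSpace ℝ ι}

open Classical in
/-- the point of `TB` with given components, with a default value -/
def mkB (F : Facts e) (D : ℝ) (X δ : ι → UT E M → E) (ε : ℝ) {r : ℝ} (hr : 0 ≤ r) (v : UT E M)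
    (w : Wp ι) : TB F D X δ ε r :=
  if h : (Pm F D X δ ε v w.1 = w.1 ∧ Pm F D X δ ε v w.2.1 = w.2.1 ∧
    Pm F D X δ ε v w.2.2 = w.2.2) ∧ ‖w‖ ≤ r then ⟨v, w, h.1.1, h.1.2.1, h.1.2.2, h.2⟩
  else ⟨v, 0, map_zero _, map_zero _, map_zero _, by rw [norm_zero]; exact hr⟩

theorem mkB_v (hr : 0 ≤ r) (v : UT E M) (w : Wp ι) : (mkB F D X δ ε hr v w).v = v := by
  unfold mkB
  split_ifs <;> rfl

theorem mkB_w (hr : 0 ≤ r) {v : UT E M} {w : Wp ι} (h1 : Pm F D X δ ε v w.1 = w.1)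
    (h2 : Pm F D X δ ε v w.2.1 = w.2.1) (h3 : Pm F D X δ ε v w.2.2 = w.2.2) (h4 : ‖w‖ ≤ r) :
    (mkB F D X δ ε hr v w).w = w := by
  unfold mkB
  rw [dif_pos ⟨⟨h1, h2, h3⟩, h4⟩]

/-- the smoothness of the maps to `TB` -/
theorem at_mkB (hr : 0 ≤ r) {V : Type} [NormedAddCommGroup V] [NormedSpace ℝ V]
    [FiniteDimensional ℝ V] {g : V → UT E M} {w : V → Wp ι} {x : V} (hg : (dUT E M).At g x)
    (hw : Sm w x) (hP : ∀ᶠ y in 𝓝 x, Pm F D X δ ε (g y) (w y).1 = (w y).1 ∧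
      Pm F D X δ ε (g y) (w y).2.1 = (w y).2.1 ∧ Pm F D X δ ε (g y) (w y).2.2 = (w y).2.2)
    (hx : ‖w x‖ < r) : (dTB F D X δ ε r).At (fun y => mkB F D X δ ε hr (g y) (w y)) x := by
  refine ⟨?_, ?_⟩
  · exact (dUT E M).congr hg (Eventually.of_forall fun y => (mkB_v hr _ _).symm)
  · refine hw.congr ?_
    have h1 : ∀ᶠ y in 𝓝 x, ‖w y‖ < r := hw.continuousAt.norm.eventually_lt_const hx
    filter_upwards [hP, h1] with y h2 h3
    exact (mkB_w hr h2.1 h2.2.1 h2.2.2 h3.le).symm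

/-- the plot of the small ball -/
def kB (hV : Vec F D X δ ε G₁ f) (hr : 0 ≤ r) (p : Z × E3 l) : TB F D X δ ε r :=
  mkB F D X δ ε hr (G₁ p.1) (cm3 f p)

theorem kB_v (hV : Vec F D X δ ε G₁ f) (hr : 0 ≤ r) (p : Z × E3 l) : (kB hV hr p).v = G₁ p.1 :=
  mkB_v hr _ _

theorem kB_w (hV : Vec F D X δ ε G₁ f) (ho : ∀ x, Orthonormal ℝ fun i => f i x) (hr : 0 ≤ r)
    {p : Z × E3 l} (hp : p ∈ Ud Z (E3 l) r) : (kB hV hr p).w = cm3 f p :=
  mkB_w hr (hV.pm_cmbE _ _) (hV.pm_cmbE _ _) (hV.pm_cmbE _ _)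
    (by rw [norm_cm3 ho]; exact le_of_lt hp)

theorem at_G (hV : Vec F D X δ ε G₁ f) {V : Type} [NormedAddCommGroup V] [NormedSpace ℝ V]
    [FiniteDimensional ℝ V] {u : V → Z × E3 l} {x : V} (hu : Sm u x) :
    (dUT E M).At (fun y => G₁ (u y).1) x :=
  (dUT E M).comp (u := G₁) (g := fun y => (u y).1) (hV.plot _) hu.fst

theorem sm_cm3 (hV : Vec F D X δ ε G₁ f) {V : Type} [NormedAddCommGroup V] [NormedSpace ℝ V]
    [FiniteDimensional ℝ V] {u : V → Z × E3 l} {x : V} (hu : Sm u x) :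
    Sm (fun y => cm3 f (u y)) x :=
  Sm.comp (f := cm3 f) (Sm.of_contDiff (contDiff_cm3 hV.sm) _) hu

theorem map_kB (hV : Vec F D X δ ε G₁ f) (ho : ∀ x, Orthonormal ℝ fun i => f i x) (hr : 0 ≤ r) :
    ((Dif.lin (Z × E3 l)).on (Ud Z (E3 l) r)).Map (dTB F D X δ ε r) (kB hV hr) := by
  intro V _ _ _ u x hu
  have h1 : Sm u x := hu.1
  refine at_mkB hr (g := fun y => G₁ (u y).1) (w := fun y => cm3 f (u y)) (at_G hV h1)
    (sm_cm3 hV h1) (Eventually.of_forall fun y => ⟨hV.pm_cmbE _ _, hV.pm_cmbE _ _,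
      hV.pm_cmbE _ _⟩) ?_
  rw [norm_cm3 ho]
  exact hu.2.self_of_nhds

/-- the plot is thin where the base point is constant -/
theorem thin_kB (h : S2N.Fam F hD hB hdiam l X δ ε) (hV : Vec F D X δ ε G₁ f)
    (ho : ∀ x, Orthonormal ℝ fun i => f i x) (hr : 0 ≤ r) {K : Set Z} (hK : IsCompact K)
    {v₀ : UT E M} (hout : ∀ x ∉ K, G₁ x = v₀) {m : ℕ} (hm : 3 * l ≤ m) :
    TH.Thin ((Dif.lin (Z × E3 l)).on (Ud Z (E3 l) r ∩ (Bd (E3 l) K)ᶜ)) (dTB F D X δ ε r)
      (kB hV hr) m := by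
  refine ⟨fun {V} _ _ _ {u x} hu => ?_⟩
  set P := Pm F D X δ ε v₀ with hPd
  let R := LinearMap.range ((P : EuclideanSpace ℝ ι →L[ℝ] EuclideanSpace ℝ ι) :
    EuclideanSpace ℝ ι →ₗ[ℝ] EuclideanSpace ℝ ι)
  have hR : ∀ z : R, P (z : EuclideanSpace ℝ ι) = z := by
    rintro ⟨_, y, rfl⟩
    exact h.Pm_Pm v₀ y
  let Q : EuclideanSpace ℝ ι →L[ℝ] R := P.codRestrict R fun y => ⟨y, rfl⟩
  have hu1 : Sm u x := hu.1
  have hfr : finrank ℝ R = l := h.finrank_range v₀
  let w₁ : R × (R × R) → Wp ι := fun z => (z.1, (z.2.1, z.2.2))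
  have hw₁ : ContDiff ℝ ∞ w₁ :=
    (R.subtypeL.contDiff.comp contDiff_fst).prodMk
      ((R.subtypeL.contDiff.comp (contDiff_fst.comp contDiff_snd)).prodMk
        (R.subtypeL.contDiff.comp (contDiff_snd.comp contDiff_snd)))
  let g : V → R × (R × R) := fun y => (Q (cm3 f (u y)).1, (Q (cm3 f (u y)).2.1,
    Q (cm3 f (u y)).2.2))
  have hc := sm_cm3 hV hu1
  have hg : Sm g x := by
    have k1 : ContDiff ℝ ∞ (fun w : Wp ι => ((Q w.1, (Q w.2.1, Q w.2.2)) : R × (R × R))) :=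
      (Q.contDiff.comp contDiff_fst).prodMk ((Q.contDiff.comp (contDiff_fst.comp
        contDiff_snd)).prodMk (Q.contDiff.comp (contDiff_snd.comp contDiff_snd)))
    exact Sm.comp (f := fun w : Wp ι => ((Q w.1, (Q w.2.1, Q w.2.2)) : R × (R × R)))
      (Sm.of_contDiff k1 _) hc
  -- the base point is constant near `x`
  have hev : ∀ᶠ y in 𝓝 x, ‖(u y).2‖ < r ∧ (u y).1 ∉ K := hu.2.mono fun y hy => hy
  have hgw : ∀ y, (u y).1 ∉ K → w₁ (g y) = cm3 f (u y) := by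
    intro y hy
    have k1 : ∀ c, P (cmbE (fun i => f i (u y).1) c) = cmbE (fun i => f i (u y).1) c :=
      fun c => by
        rw [hPd, ← hout _ hy]
        exact hV.pm_cmbE _ _
    exact Prod.ext (k1 _) (Prod.ext (k1 _) (k1 _))
  refine ⟨R × (R × R), inferInstance, inferInstance, inferInstance,
    fun z => mkB F D X δ ε hr v₀ (w₁ z), g, ?_, hg, ?_, ?_⟩
  · rw [finrank_prod, finrank_prod, hfr]
    omega
  · refine at_mkB hr (g := fun _ => v₀) (w := w₁) (H583.at_const v₀ _) (Sm.of_contDiff hw₁ _)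
      (Eventually.of_forall fun z => ⟨hR _, hR _, hR _⟩) ?_
    rw [hgw x hev.self_of_nhds.2, norm_cm3 ho]
    exact hev.self_of_nhds.1
  · filter_upwards [hev] with y hy
    change mkB F D X δ ε hr (G₁ (u y).1) (cm3 f (u y)) = mkB F D X δ ε hr v₀ (w₁ (g y))
    rw [hgw y hy.2, hout _ hy.2]

/-- the vectors of norm larger than `s` -/
def OB (F : Facts e) (D : ℝ) (X δ : ι → UT E M → E) (ε r s : ℝ) : Set (TB F D X δ ε r) :=
  {q | s < ‖q.w‖}

theorem opn_OB (s : ℝ) : TH.Opn (dTB F D X δ ε r) (OB F D X δ ε r s) := by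
  refine ⟨fun {V} _ _ _ {u x} hu hx => ?_⟩
  have h1 : Sm (fun y => (u y).w) x := hu.2
  exact h1.continuousAt.norm.eventually_const_lt hx

/-- **the plot of the small ball** -/
theorem plt_kB (h : S2N.Fam F hD hB hdiam l X δ ε) (hV : Vec F D X δ ε G₁ f)
    (ho : ∀ x, Orthonormal ℝ fun i => f i x) (hr : 0 ≤ r) {K : Set Z} (hK : IsCompact K)
    {v₀ : UT E M} (hout : ∀ x ∉ K, G₁ x = v₀) (hl : 3 * l ≤ 27) (s : ℝ) :
    Plt (Ud Z (E3 l) r) (Od Z (E3 l) s r) (Bd (E3 l) K) (dTB F D X δ ε r) (OB F D X δ ε r s)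
      (kB hV hr) where
  opU := isOpen_Ud r
  opO := isOpen_Od s r
  sub := Od_sub s r
  clB := isClosed_Bd hK
  map := map_kB hV ho hr
  mem p hp := by
    change s < ‖(kB hV hr p).w‖
    rw [kB_w hV ho hr hp.2, norm_cm3 ho]
    exact hp.1
  thin := thin_kB h hV ho hr hK hout hl

end

end Vale.Agent.P231.S3B4d
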