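import Vale.Agent.P231.S3B4d.Plot
import Vale.Agent.P231.S3B6.Tot

/-!
# P231, stage 3, [S3-B] (B4): the relative number of the family over the total space is the
relative number of the closed family
-/

set_option maxSynthPendingDepth 3
set_option linter.unusedSectionVars false
set_option linter.unusedVariables false

open Bundle Manifold Set Filter Module MeasureTheory
open scoped ContDiff Manifold Topology ENNReal

namespace Vale.Agent.P231.S3B4d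

noncomputable section

open Vale.Agent.P234 Vale.Agent.P231 Vale.Agent.P231.Fm Vale.Agent.P231.W Vale.Agent.P231.WR
open Vale.Agent.P231.WF Vale.Agent.P231.H766 Vale.Agent.P231.S2N Vale.Agent.P231.S3S
open Vale.Agent.P231.S3Y Vale.Agent.P231.S3B4 Vale.Agent.P231.S3B5 Vale.Agent.P231.S3L
open Vale.Agent.P231.S3B1 (GY dGY v8 LHt exists_margin map_Gc PmN)
open Vale.Agent.P231.S3B6 (cp OG fa_cp map_cp opn_OG Pn_lht)
open Vale.Agent.P231.S2II (Eul)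
open Vale.Agent.P231.S3B4c (Vec cmbE cmbE_apply contDiff_cmbE norm_cmbE)

variable {E : Type*} [NormedAddCommGroup E] [NormedSpace ℝ E]
  {M : Type*} [MetricSpace M] [ChartedSpace E M]
  [RiemannianBundle (fun x : M => TangentSpace 𝓘(ℝ, E) x)]
  {e : ∀ x : M, TangentSpace 𝓘(ℝ, E) x → M}
  [FiniteDimensional ℝ E] [IsManifold 𝓘(ℝ, E) ∞ M]
  [IsContMDiffRiemannianBundle 𝓘(ℝ, E) ∞ E (fun x : M => TangentSpace 𝓘(ℝ, E) x)]
  [CompactSpace M] [ConnectedSpace M] [IsRiemannianManifold 𝓘(ℝ, E) M]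

variable {ι : Type} [Fintype ι] [DecidableEq ι]

variable {F : Facts e} {D : ℝ} {hD : 0 < D} {hB : InjGE e D} {hdiam : ∀ p q : M, dist p q ≤ D}
  {l : ℕ} {X δ Pc Ps : ι → UT E M → E} {ε r ρ ε₁ : ℝ} {C : Xi F D X δ ε → M}

/-! ### the two maps from the small ball -/

/-- the inclusion into the total space -/
def toT (hr : r ≤ ε₁) (q : TB F D X δ ε r) : BT F D X δ ε ε₁ :=
  ⟨⟨q.v, q.w.1, q.w.2.1, q.w.2.2, q.pa, q.px, q.py⟩,
    ((norm_fst_le _).trans (norm_snd_le _)).trans (q.nw.trans hr),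
    ((norm_snd_le _).trans (norm_snd_le _)).trans (q.nw.trans hr)⟩

theorem toT_v (hr : r ≤ ε₁) (q : TB F D X δ ε r) : (toT hr q).1.v = q.v := rfl

theorem toT_w (hr : r ≤ ε₁) (q : TB F D X δ ε r) : (toT hr q).1.w = q.w := rfl

theorem map_toT (hr : r ≤ ε₁) :
    (dTB F D X δ ε r).Map ((dTY F D X δ ε).sub (BT F D X δ ε ε₁)) (toT hr) :=
  fun hu => ⟨hu.1, hu.2⟩

theorem toT_ext (hr : r ≤ ε₁) {q : TB F D X δ ε r} {p : BT F D X δ ε ε₁} (hv : p.1.v = q.v)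
    (hw : p.1.w = q.w) : toT hr q = p := by
  obtain ⟨p, hp⟩ := p
  refine Subtype.ext ?_
  have h1 := congrArg (fun w : Wp ι => w.1) hw
  have h2 := congrArg (fun w : Wp ι => w.2.1) hw
  have h3 := congrArg (fun w : Wp ι => w.2.2) hw
  exact TY.ext hv.symm h1.symm h2.symm h3.symm

/-- the quadruple of a point of the small ball -/
def gT (hP : ∀ x y : M, dist x y = D → finrank ℝ (H775.Pl e D x y) = l + 1)
    (h : S2N.Fam F hD hB hdiam l X δ ε) (q : TB F D X δ ε r) : GY e D :=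
  S3B1.Gc hP h (q.v, lamV D q.w)

theorem map_gT (hP : ∀ x y : M, dist x y = D → finrank ℝ (H775.Pl e D x y) = l + 1)
    (h : S2N.Fam F hD hB hdiam l X δ ε) : (dTB F D X δ ε r).Map (dGY e D) (gT hP h) := by
  intro V _ _ _ u x hu
  refine map_Gc hP h (u := fun s => ((u s).v, lamV D (u s).w)) ⟨hu.1, ?_⟩
  exact Sm.comp (f := lamV D) (Sm.of_contDiff (contDiff_lamV D) _) hu.2

/-- the loops of the family over the small ball -/
theorem cT_toT (hρ : 0 < ρ) (hr : r ≤ ε₁) (hrρ : r ≤ ρ) (q : TB F D X δ ε r) :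
    cT F hD hB hdiam X δ ε C Pc Ps ρ (toT hr q).1 = kT X Pc Ps q :=
  funext fun t => by
    have h1 : ‖(toT hr q).1.a‖ ≤ ρ := ((norm_fst_le q.w).trans q.nw).trans hrρ
    rw [cT_near hρ h1]
    rfl

/-- the margin of the closed family -/
theorem exists_mG (hP : ∀ x y : M, dist x y = D → finrank ℝ (H775.Pl e D x y) = l + 1)
    (h : S2N.Fam F hD hB hdiam l X δ ε) {s : ℝ} (hs : 0 < s) :
    ∃ m, m < 4 * D ∧ ∀ (v : UT E M) (w : Wp ι), Pm F D X δ ε v w.1 = w.1 →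
      Pm F D X δ ε v w.2.1 = w.2.1 → Pm F D X δ ε v w.2.2 = w.2.2 → s ≤ ‖w‖ →
      S3B1.Gc hP h (v, w) ∈ OG F m := by
  obtain ⟨m, hm, h1⟩ := exists_margin hP h hs
  refine ⟨m, hm, fun v w g1 g2 g3 hw => h1 v w ?_⟩
  have h2 : PmN F D X δ ε v w = w := Prod.ext g1 (Prod.ext g2 g3)
  rwa [h2]

theorem OG_mono {m m' : ℝ} (h : m ≤ m') {y : GY e D} (hy : y ∈ OG F m) : y ∈ OG F m' :=
  lt_of_lt_of_le (α := ℝ) hy h

theorem Pm_lamV (v : UT E M) {w : Wp ι} (h1 : Pm F D X δ ε v w.1 = w.1)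
    (h2 : Pm F D X δ ε v w.2.1 = w.2.1) (h3 : Pm F D X δ ε v w.2.2 = w.2.2) :
    Pm F D X δ ε v (lamV D w).1 = (lamV D w).1 ∧ Pm F D X δ ε v (lamV D w).2.1 = (lamV D w).2.1 ∧
      Pm F D X δ ε v (lamV D w).2.2 = (lamV D w).2.2 := by
  unfold lamV
  refine ⟨?_, ?_, ?_⟩
  · rw [map_add, map_smul, map_smul, map_sub, h1, h2, h3]
  · rw [map_neg, map_smul, h2]
  · rw [map_add, map_smul, map_smul, map_add, h1, h2, h3]

/-! ### the comparison -/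

/-- the cosine parts of the fields -/
abbrev PC (F : Facts e) (hD : 0 < D) (hB : InjGE e D) (hdiam : ∀ p q : M, dist p q ≤ D)
    (X δ : ι → UT E M → E) (ε : ℝ) : ι → UT E M → E :=
  S3E2.Pc F D (S3E2.Wi F hD hB hdiam X δ ε) (Real.pi / (2 * D))

/-- the sine parts of the fields -/
abbrev PS (F : Facts e) (hD : 0 < D) (hB : InjGE e D) (hdiam : ∀ p q : M, dist p q ≤ D)
    (X δ : ι → UT E M → E) (ε : ℝ) : ι → UT E M → E :=
  S3E2.Ps F D (S3E2.Wi F hD hB hdiam X δ ε) (Real.pi / (2 * D))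

/-- **the number of the family over the total space is the number of the closed family, up to a
sign** -/
theorem small_main (hP : ∀ x y : M, dist x y = D → finrank ℝ (H775.Pl e D x y) = l + 1)
    (h : S2N.Fam F hD hB hdiam l X δ ε) (hl : 3 * l ≤ 26) (hρ : 0 < ρ) (hε₁ : 0 < ε₁) :
    ∃ r, 0 < r ∧ r ≤ ρ ∧ r ≤ ε₁ ∧ ∀ s, 0 < s → s < r → ∃ m₀, 0 < m₀ ∧ m₀ < 4 * D ∧
      ∃ S₀ : NNReal, ∀ (m : ℝ) (S : NNReal), m₀ ≤ m → S₀ ≤ S →
      ∀ {C : Xi F D X δ ε → M} {d : ℝ} {J : ℕ} {a₀ : Fin J → ℂ} {OT : Set (BT F D X δ ε ε₁)}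
        (hT : FA ((dTY F D X δ ε).sub (BT F D X δ ε ε₁)) (dM E M) S (ENNReal.ofReal m) d J OT
          (fun p => cT F hD hB hdiam X δ ε C (PC F hD hB hdiam X δ ε) (PS F hD hB hdiam X δ ε)
            ρ p.1) fun _ => a₀)
        (hOT : ∀ q : BT F D X δ ε ε₁, s < ‖q.1.w‖ → q ∈ OT)
        (hG : FA (dGY e D) (dM E M) S (ENNReal.ofReal m) d J (OG F m) (cp F hB) fun _ => a₀)
        (z0 : LL (dM E M) S (ENNReal.ofReal m) d J) {w : Form (dM E M)} (hw : w.d = 0)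
        (hwe : w.sg = w) (hwn : w ^ (2 + 1) = 0) (hw8 : Form.IsDeg 8 w)
        {ℓ : Form (dLL (dM E M) S (ENNReal.ofReal m) d J)}
        (hℓ : ℓ.d = t2L S (ENNReal.ofReal m) d J w) (hℓd : Form.IsDeg 28 ℓ)
        {Z : Type} [NormedAddCommGroup Z] [NormedSpace ℝ Z] [FiniteDimensional ℝ Z]
        [MeasurableSpace Z] [BorelSpace Z] {G₁ : Z → UT E M} {f : Fin l → Z → EuclideanSpace ℝ ι}
        (hV : Vec F D X δ ε G₁ f) (ho : ∀ x, Orthonormal ℝ fun i => f i x) {K : Set Z}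
        (hK : IsCompact K) {v₀ : UT E M} (hout : ∀ x ∉ K, G₁ x = v₀) {N k : ℕ} (hN : N = k + 1)
        (b : Basis (Fin N) ℝ (Z × E3 l)) {U O B : Set (Z × E3 l)} {χ : Z × E3 l → ℝ}
        {κ : Z × E3 l → BT F D X δ ε ε₁}
        (h1 : Plt U O B ((dTY F D X δ ε).sub (BT F D X δ ε ε₁)) OT κ) (hχ : Cut U O B χ)
        (hκv : ∀ p : Z × E3 l, ‖p.2‖ < r → (κ p).1.v = G₁ p.1)
        (hκw : ∀ p : Z × E3 l, ‖p.2‖ < r → (κ p).1.w = cm3 f p)
        (hU : ∀ p : Z × E3 l, ‖p.2‖ < r → p ∈ U)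
        (hO : ∀ p : Z × E3 l, s < ‖p.2‖ → ‖p.2‖ < r → p ∈ O)
        (hBK : ∀ p : Z × E3 l, ‖p.2‖ < r → p ∈ B → p.1 ∈ K)
        (hcut : ∀ p ∈ U, p ∈ B → p ∉ O → ‖p.2‖ < r)
        {B' : Set (Z × E3 l)} {χ' : Z × E3 l → ℝ} {κ' : Z × E3 l → GY e D}
        (hκ' : ∀ p, κ' p = S3B1.Gc hP h (G₁ p.1, cm3 f p))
        (h2 : Plt univ (κ' ⁻¹' OG F m) B' (dGY e D) (OG F m) κ')
        (hχ' : Cut univ (κ' ⁻¹' OG F m) B' χ') (hB' : ∀ p ∈ B', p.1 ∈ K),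
        ∃ c : ℝ, c ^ 2 = 1 ∧
          Pn b χ h1 (hT.T w) (hT.L z0 ℓ) = c * Pn b χ' h2 (hG.T w) (hG.L z0 ℓ) := by
  obtain ⟨r₀, hr₀, hch⟩ := chain hP h
  obtain ⟨c1, hc1, hc1'⟩ := exists_lam_le hD (EuclideanSpace ℝ ι)
  obtain ⟨c2, hc2, hc2'⟩ := exists_lam_le hD (Eul l)
  set r : ℝ := min (min r₀ ρ) ε₁ with hr
  have hr0 : 0 < r := lt_min (lt_min hr₀ hρ) hε₁
  have hr1 : r ≤ r₀ := (min_le_left _ _).trans (min_le_left _ _)
  have hrρ : r ≤ ρ := (min_le_left _ _).trans (min_le_right _ _)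
  have hrε : r ≤ ε₁ := min_le_right _ _
  refine ⟨r, hr0, hrρ, hrε, fun s hs hsr => ?_⟩
  obtain ⟨S₁, V, hMg, hL⟩ := hch r hr1
  obtain ⟨m₁, hm₁, hm₁'⟩ := hMg.2 s hs
  have hC0 : 0 < max c1 c2 := hc1.trans_le (le_max_left _ _)
  obtain ⟨m₂, hm₂, hm₂'⟩ := exists_mG hP h (s := s / max c1 c2) (by positivity)
  refine ⟨max (max m₁ m₂) (2 * D), lt_max_of_lt_right (by linarith),
    max_lt (max_lt hm₁ hm₂) (by linarith), S₁.toNNReal, ?_⟩
  intro m S hm hS C d J a₀ OT hT hOT hG z0 w hw hwe hwn hw8 ℓ hℓ hℓd Z _ _ _ _ _ G₁ f hV ho K hK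
    v₀ hout N k hN b U O B χ κ h1 hχ hκv hκw hU hO hBK hcut B' χ' κ' hκ' h2 hχ' hB'
  have hm1 : m₁ ≤ m := ((le_max_left _ _).trans (le_max_left _ _)).trans hm
  have hm2 : m₂ ≤ m := ((le_max_right _ _).trans (le_max_left _ _)).trans hm
  have hS1 : S₁ ≤ S := Real.toNNReal_le_iff_le_coe.1 hS
  obtain ⟨χ₀, hχ₀⟩ := exists_cutd (A := E3 l) hK hsr
  have hkB := plt_kB h hV ho hr0.le hK hout (by omega : 3 * l ≤ 27) s
  have hth := thin_kB h hV ho hr0.le hK hout hl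
  -- the family over the total space
  have hmT : ∀ q ∈ OB F D X δ ε r s, toT hrε q ∈ OT := fun q hq => hOT _ hq
  have e1 : Pn b χ h1 (hT.T w) (hT.L z0 ℓ) =
      Pn b χ₀ (post hkB (map_toT hrε) hmT) (hT.T w) (hT.L z0 ℓ) := by
    refine Pn_small hN b (hT.rel z0 hw hwe hwn hw8 hℓ hℓd) h1 hχ _ hχ₀ (fun p hp => hU p hp)
      (fun p hp => hO p hp.1 hp.2) (fun p hp => hBK p hp) (fun p hp => ?_) hcut
    refine toT_ext hrε ?_ ?_
    · rw [hκv p hp, kB_v]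
    · rw [hκw p hp, kB_w hV ho hr0.le hp]
  have hT' := hT.comp (map_toT hrε) (opn_OB s) hmT
  have e2 : Pn b χ₀ (post hkB (map_toT hrε) hmT) (hT.T w) (hT.L z0 ℓ) =
      Pn b χ₀ hkB (hT'.T w) (hT'.L z0 ℓ) := by
    rw [Pn_comp b hkB (map_toT hrε) hmT (post hkB (map_toT hrε) hmT) (fun _ _ => rfl),
      ← comp_T hT (map_toT hrε) (opn_OB s) hmT, ← comp_L hT (map_toT hrε) (opn_OB s) hmT]
  have hcT : ∀ q : TB F D X δ ε r, cT F hD hB hdiam X δ ε C (PC F hD hB hdiam X δ ε)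
      (PS F hD hB hdiam X δ ε) ρ (toT hrε q).1 =
        kT X (PC F hD hB hdiam X δ ε) (PS F hD hB hdiam X δ ε) q := cT_toT hρ hrε hrρ
  have hk : FA (dTB F D X δ ε r) (dM E M) S (ENNReal.ofReal m) d J (OB F D X δ ε r s)
      (kT X (PC F hD hB hdiam X δ ε) (PS F hD hB hdiam X δ ε)) fun _ => a₀ := by
    rw [← funext hcT]
    exact hT'
  have e3 : Pn b χ₀ hkB (hT'.T w) (hT'.L z0 ℓ) = Pn b χ₀ hkB (hk.T w) (hk.L z0 ℓ) := by
    rw [T_congr hT' hk (fun q _ => hcT q) w, L_congr hT' hk (fun q _ => hcT q)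
      (fun _ _ _ => rfl) z0 ℓ]
  -- the closed family
  have hmG : ∀ q ∈ OB F D X δ ε r s, gT hP h q ∈ OG F m := by
    intro q hq
    obtain ⟨g1, g2, g3⟩ := Pm_lamV q.v q.pa q.px q.py
    refine OG_mono hm2 (hm₂' q.v _ g1 g2 g3 ?_)
    rw [div_le_iff₀ hC0, mul_comm]
    have k1 : s < ‖q.w‖ := hq
    exact k1.le.trans ((hc1' q.w).trans (mul_le_mul_of_nonneg_right (le_max_left _ _)
      (norm_nonneg _)))
  have hG' := hG.comp (map_gT (r := r) hP h) (opn_OB s) hmG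
  have e4 : Pn b χ₀ hkB (hG'.T w) (hG'.L z0 ℓ) = Pn b χ₀ hkB (hk.T w) (hk.L z0 ℓ) := by
    refine Pn_lht hN b hkB hth hL hS1 (fun q hq => ?_) hk hG' z0 hw hwe hwn hw8 hℓ hℓd hχ₀
    exact (hm₁' q (le_of_lt hq)).trans (ENNReal.ofReal_le_ofReal hm1)
  have e5 : Pn b χ₀ (post hkB (map_gT hP h) hmG) (hG.T w) (hG.L z0 ℓ) =
      Pn b χ₀ hkB (hG'.T w) (hG'.L z0 ℓ) := by
    rw [Pn_comp b hkB (map_gT hP h) hmG (post hkB (map_gT hP h) hmG) (fun _ _ => rfl),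
      ← comp_T hG (map_gT hP h) (opn_OB s) hmG, ← comp_L hG (map_gT hP h) (opn_OB s) hmG]
  -- the linear change of coordinates
  have hRG := hG.rel z0 hw hwe hwn hw8 hℓ hℓd
  have hmem : ∀ p : Z × E3 l, s < ‖p.2‖ → κ' (AA Z hD l p) ∈ OG F m := by
    intro p hp
    rw [hκ', cm3_AA, AA_apply]
    obtain ⟨g1, g2, g3⟩ := Pm_lamV (D := D) (w := cm3 f p) (G₁ p.1) (hV.pm_cmbE _ _)
      (hV.pm_cmbE _ _) (hV.pm_cmbE _ _)
    refine OG_mono hm2 (hm₂' _ _ g1 g2 g3 ?_)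
    rw [← cm3_AA hD, norm_cm3 ho, AA_apply, div_le_iff₀ hC0, mul_comm]
    exact hp.le.trans ((hc2' p.2).trans (mul_le_mul_of_nonneg_right (le_max_right _ _)
      (norm_nonneg _)))
  have e6 : Pn b (χ' ∘ AA Z hD l) (h2.lin (AA Z hD l)) (hG.T w) (hG.L z0 ℓ) =
      Pn b χ₀ (post hkB (map_gT hP h) hmG) (hG.T w) (hG.L z0 ℓ) := by
    refine Pn_small hN b hRG _ (hχ'.lin (AA Z hD l)) _ hχ₀ (fun p hp => mem_univ _)
      (fun p hp => hmem p hp.1) (fun p hp hp' => hB' (AA Z hD l p) hp') (fun p hp => ?_) fun p hp hp' hp'' => ?_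
    · change gT hP h (kB hV hr0.le p) = κ' (AA Z hD l p)
      rw [hκ', cm3_AA, AA_apply]
      unfold gT
      rw [kB_v, kB_w hV ho hr0.le hp]
    · by_contra hcon
      exact hp'' (hmem p (hsr.trans_le (not_lt.1 hcon)))
  have e7 := Pn_lin b h2 (AA Z hD l) hRG hχ'
  obtain ⟨c, hc, hcJ⟩ := JJ_basis b (b.map (AA Z hD l).toLinearEquiv)
  refine ⟨c, hc, ?_⟩
  rw [e1, e2, e3, ← e4, ← e5, ← e6, e7]
  exact hcJ _

end

end Vale.Agent.P231.S3B4d
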